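import Vale.Agent.Q183G.Rep
import Mathlib.Computability.RE
import Mathlib.Algebra.BigOperators.Fin

/-!
Representability on a carrier of given size is primitive recursive.
-/

namespace Vale.Agent.Q183G

open Vale.Agent.P183 Function

/-- The digit number `i` of `k` in base `b`. -/
def dg (b k i : ℕ) : ℕ := k / b ^ i % b

theorem dg_lt {b : ℕ} (hb : 0 < b) (k i : ℕ) : dg b k i < b := Nat.mod_lt _ hb

theorem exists_dg {b n : ℕ} (g : Fin n → ℕ) (hg : ∀ i, g i < b) :
    ∃ k < b ^ n, ∀ i : Fin n, dg b k i = g i := by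
  refine ⟨(finFunctionFinEquiv fun i => (⟨g i, hg i⟩ : Fin b)).1, Fin.is_lt _, fun i => ?_⟩
  have := finFunctionFinEquiv_symm_apply_val
    (finFunctionFinEquiv fun i => (⟨g i, hg i⟩ : Fin b)) i
  rw [Equiv.symm_apply_apply] at this
  exact this.symm

/-- The relation with code `r`. -/
def bit (N r x y : ℕ) : Prop := dg 2 (dg (2 ^ N) r x) y = 1

theorem exists_bit {N : ℕ} (R : Fin N → Fin N → Prop) :
    ∃ r < (2 ^ N) ^ N, ∀ x y : Fin N, bit N r x y ↔ R x y := by
  classical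
  have h1 : ∀ x : Fin N, ∃ k < 2 ^ N, ∀ y : Fin N, dg 2 k y = if R x y then 1 else 0 := fun x =>
    exists_dg _ fun y => by split_ifs <;> simp
  choose k hk1 hk2 using h1
  obtain ⟨r, h2, h3⟩ := exists_dg k hk1
  refine ⟨r, h2, fun x y => ?_⟩
  rw [bit, h3, hk2]
  split_ifs with h <;> simp [h]

/-- `r` codes an equivalence relation. -/
def Eqv (N r : ℕ) : Prop :=
  (∀ x < N, bit N r x x) ∧ (∀ x < N, ∀ y < N, bit N r x y → bit N r y x) ∧
    ∀ x < N, ∀ y < N, ∀ z < N, bit N r x y → bit N r y z → bit N r x z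

/-- The map with code `f` keeps the relation with code `r`. -/
def Keep (N f r : ℕ) : Prop := ∀ x < N, ∀ y < N, bit N r x y → bit N r (dg N f x) (dg N f y)

/-- The relation with code `r` is contained in the relation with code `s`. -/
def Sub (N r s : ℕ) : Prop := ∀ x < N, ∀ y < N, bit N r x y → bit N s x y

/-- The map with code `f` is injective, or `t = 0`. -/
def Ok (t N f : ℕ) : Prop := t = 0 ∨ ∀ x < N, ∀ y < N, dg N f x = dg N f y → x = y

/-- The map with code `f` keeps all relations of the family with code `k`. -/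
def KeepAll (n N k f : ℕ) : Prop := ∀ a < n, Keep N f (dg ((2 ^ N) ^ N) k a)

/-- The family with code `k` is an order embedding. -/
def Emb (n m N k : ℕ) : Prop :=
  (∀ a < n, Eqv N (dg ((2 ^ N) ^ N) k a)) ∧ ∀ a < n, ∀ b < n,
    (Sub N (dg ((2 ^ N) ^ N) k a) (dg ((2 ^ N) ^ N) k b) ↔ dg 2 m (n * a + b) = 1) ∧
    (Sub N (dg ((2 ^ N) ^ N) k a) (dg ((2 ^ N) ^ N) k b) →
      Sub N (dg ((2 ^ N) ^ N) k b) (dg ((2 ^ N) ^ N) k a) → a = b)

/-- The family with code `k` is full. -/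
def Full (t n N k : ℕ) : Prop :=
  ∀ r < (2 ^ N) ^ N, Eqv N r → (∀ f < N ^ N, Ok t N f → KeepAll n N k f → Keep N f r) →
    ∃ a < n, Sub N r (dg ((2 ^ N) ^ N) k a) ∧ Sub N (dg ((2 ^ N) ^ N) k a) r

/-- Transitivity, or `t = 0`. -/
def Tr (t n N k : ℕ) : Prop :=
  t = 0 ∨ ∀ x < N, ∀ y < N, ∃ f < N ^ N, Ok t N f ∧ KeepAll n N k f ∧ dg N f x = y

/-- The bounded formula. -/
def Chk (t n m N : ℕ) : Prop :=
  0 < N ∧ ∃ k < ((2 ^ N) ^ N) ^ n, Emb n m N k ∧ Full t n N k ∧ Tr t n N k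

/-! Primitive recursiveness. -/

section

variable {α : Type} [Primcodable α]

theorem p_id : Primrec fun a : α => a := Primrec.id

theorem p_fst {β γ : Type} [Primcodable β] [Primcodable γ] {f : α → β × γ} (h : Primrec f) :
    Primrec fun a => (f a).1 := Primrec.fst.comp h

theorem p_snd {β γ : Type} [Primcodable β] [Primcodable γ] {f : α → β × γ} (h : Primrec f) :
    Primrec fun a => (f a).2 := Primrec.snd.comp h

variable {f g h k : α → ℕ} {p q : α → Prop}

theorem p_add (hf : Primrec f) (hg : Primrec g) : Primrec fun a => f a + g a :=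
  Primrec.nat_add.comp hf hg

theorem p_mul (hf : Primrec f) (hg : Primrec g) : Primrec fun a => f a * g a :=
  Primrec.nat_mul.comp hf hg

theorem p_pow (hf : Primrec f) (hg : Primrec g) : Primrec fun a => f a ^ g a :=
  (Primrec₂.unpaired'.1 Nat.Primrec.pow).comp hf hg

theorem p_dg (hf : Primrec f) (hg : Primrec g) (hh : Primrec h) :
    Primrec fun a => dg (f a) (g a) (h a) :=
  Primrec.nat_mod.comp (Primrec.nat_div.comp hg (p_pow hf hh)) hf

theorem p_eq (hf : Primrec f) (hg : Primrec g) : PrimrecPred fun a => f a = g a :=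
  Primrec.eq.comp hf hg

theorem p_lt (hf : Primrec f) (hg : Primrec g) : PrimrecPred fun a => f a < g a :=
  Primrec.nat_lt.comp hf hg

theorem p_and (hp : PrimrecPred p) (hq : PrimrecPred q) : PrimrecPred fun a => p a ∧ q a :=
  hp.and hq

theorem p_or (hp : PrimrecPred p) (hq : PrimrecPred q) : PrimrecPred fun a => p a ∨ q a :=
  hp.or hq

theorem p_imp (hp : PrimrecPred p) (hq : PrimrecPred q) : PrimrecPred fun a => p a → q a :=
  (hp.not.or hq).of_eq fun _ => imp_iff_not_or.symm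

theorem p_iff (hp : PrimrecPred p) (hq : PrimrecPred q) : PrimrecPred fun a => (p a ↔ q a) :=
  ((p_imp hp hq).and (p_imp hq hp)).of_eq fun _ => iff_iff_implies_and_implies.symm

theorem p_all {R : α → ℕ → Prop} (hf : Primrec f) (hR : PrimrecPred fun z : α × ℕ => R z.1 z.2) :
    PrimrecPred fun a => ∀ x < f a, R a x :=
  ((PrimrecRel.forall_mem_list (PrimrecRel.swap (r := R) hR)).comp
    (Primrec.list_range.comp hf) Primrec.id).of_eq fun a => by simp [swap]

theorem p_ex {R : α → ℕ → Prop} (hf : Primrec f) (hR : PrimrecPred fun z : α × ℕ => R z.1 z.2) :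
    PrimrecPred fun a => ∃ x < f a, R a x :=
  ((PrimrecRel.exists_mem_list (PrimrecRel.swap (r := R) hR)).comp
    (Primrec.list_range.comp hf) Primrec.id).of_eq fun a => by simp [swap]

theorem p_bit (hf : Primrec f) (hg : Primrec g) (hh : Primrec h) (hk : Primrec k) :
    PrimrecPred fun a => bit (f a) (g a) (h a) (k a) :=
  p_eq (p_dg (.const _) (p_dg (p_pow (.const _) hf) hg hh) hk) (.const _)

theorem p_eqv (hf : Primrec f) (hg : Primrec g) : PrimrecPred fun a => Eqv (f a) (g a) := by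
  have : PrimrecPred fun z : ℕ × ℕ => Eqv z.1 z.2 := by
    unfold Eqv
    repeat' with_reducible first
      | exact p_id | apply p_and | apply p_all | apply p_imp | apply p_bit
      | apply p_snd | apply p_fst
  exact this.comp (hf.pair hg)

theorem p_keep (hf : Primrec f) (hg : Primrec g) (hh : Primrec h) :
    PrimrecPred fun a => Keep (f a) (g a) (h a) := by
  have : PrimrecPred fun z : ℕ × ℕ × ℕ => Keep z.1 z.2.1 z.2.2 := by
    unfold Keep
    repeat' with_reducible first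
      | exact p_id | apply p_all | apply p_imp | apply p_bit | apply p_dg
      | apply p_snd | apply p_fst
  exact this.comp (hf.pair (hg.pair hh))

theorem p_sub (hf : Primrec f) (hg : Primrec g) (hh : Primrec h) :
    PrimrecPred fun a => Sub (f a) (g a) (h a) := by
  have : PrimrecPred fun z : ℕ × ℕ × ℕ => Sub z.1 z.2.1 z.2.2 := by
    unfold Sub
    repeat' with_reducible first
      | exact p_id | apply p_all | apply p_imp | apply p_bit
      | apply p_snd | apply p_fst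
  exact this.comp (hf.pair (hg.pair hh))

theorem p_ok (hf : Primrec f) (hg : Primrec g) (hh : Primrec h) :
    PrimrecPred fun a => Ok (f a) (g a) (h a) := by
  have : PrimrecPred fun z : ℕ × ℕ × ℕ => Ok z.1 z.2.1 z.2.2 := by
    unfold Ok
    repeat' with_reducible first
      | exact p_id | exact Primrec.const _ | apply p_or | apply p_all | apply p_imp | apply p_eq
      | apply p_dg | apply p_snd | apply p_fst
  exact this.comp (hf.pair (hg.pair hh))

theorem p_keepAll (hf : Primrec f) (hg : Primrec g) (hh : Primrec h) (hk : Primrec k) :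
    PrimrecPred fun a => KeepAll (f a) (g a) (h a) (k a) := by
  have : PrimrecPred fun z : ℕ × ℕ × ℕ × ℕ => KeepAll z.1 z.2.1 z.2.2.1 z.2.2.2 := by
    unfold KeepAll
    repeat' with_reducible first
      | exact p_id | exact Primrec.const _ | apply p_all | apply p_keep
      | apply p_dg | apply p_pow | apply p_snd | apply p_fst
  exact this.comp (hf.pair (hg.pair (hh.pair hk)))

theorem p_emb (hf : Primrec f) (hg : Primrec g) (hh : Primrec h) (hk : Primrec k) :
    PrimrecPred fun a => Emb (f a) (g a) (h a) (k a) := by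
  have : PrimrecPred fun z : ℕ × ℕ × ℕ × ℕ => Emb z.1 z.2.1 z.2.2.1 z.2.2.2 := by
    unfold Emb
    repeat' with_reducible first
      | exact p_id | exact Primrec.const _ | apply p_and | apply p_all | apply p_imp | apply p_iff
      | apply p_eqv | apply p_sub | apply p_eq | apply p_dg | apply p_pow | apply p_add
      | apply p_mul | apply p_snd | apply p_fst
  exact this.comp (hf.pair (hg.pair (hh.pair hk)))

theorem p_full (hf : Primrec f) (hg : Primrec g) (hh : Primrec h) (hk : Primrec k) :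
    PrimrecPred fun a => Full (f a) (g a) (h a) (k a) := by
  have : PrimrecPred fun z : ℕ × ℕ × ℕ × ℕ => Full z.1 z.2.1 z.2.2.1 z.2.2.2 := by
    unfold Full
    repeat' with_reducible first
      | exact p_id | exact Primrec.const _ | apply p_and | apply p_all | apply p_ex | apply p_imp
      | apply p_eqv | apply p_sub | apply p_ok | apply p_keepAll | apply p_keep | apply p_dg
      | apply p_pow | apply p_snd | apply p_fst
  exact this.comp (hf.pair (hg.pair (hh.pair hk)))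

theorem p_tr (hf : Primrec f) (hg : Primrec g) (hh : Primrec h) (hk : Primrec k) :
    PrimrecPred fun a => Tr (f a) (g a) (h a) (k a) := by
  have : PrimrecPred fun z : ℕ × ℕ × ℕ × ℕ => Tr z.1 z.2.1 z.2.2.1 z.2.2.2 := by
    unfold Tr
    repeat' with_reducible first
      | exact p_id | exact Primrec.const _ | apply p_and | apply p_or | apply p_all | apply p_ex
      | apply p_ok | apply p_keepAll | apply p_eq | apply p_dg
      | apply p_pow | apply p_snd | apply p_fst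
  exact this.comp (hf.pair (hg.pair (hh.pair hk)))

theorem p_chk (t : ℕ) : PrimrecPred fun z : (ℕ × ℕ) × ℕ => Chk t z.1.1 z.1.2 z.2 := by
  unfold Chk
  repeat' with_reducible first
    | exact p_id | exact Primrec.const _ | apply p_and | apply p_ex | apply p_lt
    | apply p_emb | apply p_full | apply p_tr | apply p_pow | apply p_snd | apply p_fst

theorem re_ex {R : α → ℕ → Prop} (hR : PrimrecPred fun z : α × ℕ => R z.1 z.2) :
    REPred fun a => ∃ n, R a n := by
  classical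
  have h : Partrec fun a => Nat.rfind fun n => Part.some (decide (R a n)) :=
    Partrec.rfind hR.computablePred.decide.partrec
  refine h.dom_re.of_eq fun a => Nat.rfind_dom.trans ⟨?_, ?_⟩
  · rintro ⟨n, h1, -⟩
    exact ⟨n, of_decide_eq_true (Part.mem_some_iff.1 h1).symm⟩
  · rintro ⟨n, h1⟩
    exact ⟨n, Part.mem_some_iff.2 (decide_eq_true h1).symm, fun _ => trivial⟩

end

/-! Correctness. -/

/-- The map with a given code. -/
def dF {N : ℕ} (f : ℕ) (x : Fin N) : Fin N := ⟨dg N f x, dg_lt x.pos _ _⟩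

theorem exists_dF {N : ℕ} (g : Fin N → Fin N) : ∃ f < N ^ N, dF f = g := by
  obtain ⟨f, h1, h2⟩ := exists_dg (fun x => (g x).1) fun x => (g x).2
  exact ⟨f, h1, funext fun x => Fin.ext (h2 x)⟩

/-- `r` is a code of the equivalence `s`. -/
def Codes {N : ℕ} (r : ℕ) (s : Setoid (Fin N)) : Prop := ∀ x y : Fin N, bit N r x y ↔ s x y

theorem Codes.eqv {N r : ℕ} {s : Setoid (Fin N)} (h : Codes r s) : Eqv N r :=
  ⟨fun x hx => (h ⟨x, hx⟩ ⟨x, hx⟩).2 (s.refl' _),
    fun x hx y hy h1 => (h ⟨y, hy⟩ ⟨x, hx⟩).2 (s.symm' ((h ⟨x, hx⟩ ⟨y, hy⟩).1 h1)),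
    fun x hx y hy z hz h1 h2 => (h ⟨x, hx⟩ ⟨z, hz⟩).2
      (s.trans' ((h ⟨x, hx⟩ ⟨y, hy⟩).1 h1) ((h ⟨y, hy⟩ ⟨z, hz⟩).1 h2))⟩

theorem Eqv.codes {N r : ℕ} (h : Eqv N r) : ∃ s : Setoid (Fin N), Codes r s :=
  ⟨⟨fun x y => bit N r x y, fun x => h.1 x x.2, fun {x y} => h.2.1 x x.2 y y.2,
    fun {x y z} => h.2.2 x x.2 y y.2 z z.2⟩, fun _ _ => Iff.rfl⟩

theorem Codes.keep {N r : ℕ} {s : Setoid (Fin N)} (h : Codes r s) (f : ℕ) :
    Keep N f r ↔ Keeps (dF f) s :=
  ⟨fun hk x y hxy => (h (dF f x) (dF f y)).1 (hk x x.2 y y.2 ((h x y).2 hxy)),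
    fun hk x hx y hy hxy => (h (dF f ⟨x, hx⟩) (dF f ⟨y, hy⟩)).2
      (hk _ _ ((h ⟨x, hx⟩ ⟨y, hy⟩).1 hxy))⟩

theorem Codes.sub {N r r' : ℕ} {s s' : Setoid (Fin N)} (h : Codes r s) (h' : Codes r' s') :
    Sub N r r' ↔ s ≤ s' :=
  ⟨fun hk x y hxy => (h' x y).1 (hk x x.2 y y.2 ((h x y).2 hxy)),
    fun hk x hx y hy hxy => (h' ⟨x, hx⟩ ⟨y, hy⟩).2 (hk ((h ⟨x, hx⟩ ⟨y, hy⟩).1 hxy))⟩

theorem ok_iff {t N f : ℕ} : Ok t N f ↔ t = 0 ∨ Bijective (dF (N := N) f) := by
  rw [← Finite.injective_iff_bijective]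
  exact or_congr_right ⟨fun h x y e => Fin.ext (h x x.2 y y.2 (congrArg Fin.val e)),
    fun h x hx y hy e => congrArg Fin.val (@h ⟨x, hx⟩ ⟨y, hy⟩ (Fin.ext e))⟩

theorem coded_le {n m : ℕ} (a b : Fin n) :
    (show Coded n m from a) ≤ (show Coded n m from b) ↔ dg 2 m (n * a + b) = 1 := by
  change m.testBit (n * a.1 + b.1) = true ↔ _
  rw [Nat.testBit_eq_decide_div_mod_eq, decide_eq_true_iff, dg]

theorem chk_core {t n m N k : ℕ} {κ : Coded n m → Setoid (Fin N)}
    (hκ : ∀ a : Fin n, Codes (dg ((2 ^ N) ^ N) k a) (κ a)) :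
    (Emb n m N k ∧ Full t n N k ∧ Tr t n N k) ↔
      Rep (fun f => t = 0 ∨ Bijective f) κ ∧ (t = 0 ∨ Trans κ) := by
  have hka : ∀ f, KeepAll n N k f ↔ ∀ a, Keeps (dF f) (κ a) := fun f =>
    ⟨fun h a => ((hκ a).keep f).1 (h _ (show Fin n from a).2),
      fun h a ha => ((hκ ⟨a, ha⟩).keep f).2 (h _)⟩
  have htr : Tr t n N k ↔ (t = 0 ∨ Trans κ) := by
    by_cases ht : t = 0
    · simp [Tr, ht]
    refine or_congr_right ⟨fun h x y => ?_, fun h x hx y hy => ?_⟩
    · obtain ⟨f, -, h1, h2, h3⟩ := h x x.2 y y.2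
      exact ⟨dF f, (ok_iff.1 h1).resolve_left ht, (hka f).1 h2, Fin.ext h3⟩
    · obtain ⟨g, h1, h2, h3⟩ := h ⟨x, hx⟩ ⟨y, hy⟩
      obtain ⟨f, hf, rfl⟩ := exists_dF g
      exact ⟨f, hf, ok_iff.2 (Or.inr h1), (hka f).2 h2, congrArg Fin.val h3⟩
  rw [htr, ← and_assoc]
  refine and_congr_left fun _ => ⟨fun ⟨h1, h2⟩ => ⟨fun (a b : Fin n) => ?_,
    fun (a b : Fin n) hab => ?_, fun s hs => ?_⟩,
    fun h => ⟨⟨fun a ha => (hκ ⟨a, ha⟩).eqv, fun a ha b hb => ⟨?_, fun g1 g2 => ?_⟩⟩,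
      fun r _ hr hk => ?_⟩⟩
  · exact ((hκ a).sub (hκ b)).symm.trans ((h1.2 a a.2 b b.2).1.trans (coded_le a b).symm)
  · exact Fin.ext ((h1.2 a a.2 b b.2).2 (((hκ a).sub (hκ b)).2 hab.le)
      (((hκ b).sub (hκ a)).2 hab.ge))
  · obtain ⟨r, hr, hc⟩ := exists_bit fun x y => s x y
    have hc : Codes r s := hc
    obtain ⟨a, ha, g1, g2⟩ := h2 r hr hc.eqv fun f _ f1 f2 =>
      (hc.keep f).2 (hs _ (ok_iff.1 f1) ((hka f).1 f2))
    exact ⟨(⟨a, ha⟩ : Fin n),
      le_antisymm (((hκ ⟨a, ha⟩).sub hc).1 g2) ((hc.sub (hκ ⟨a, ha⟩)).1 g1)⟩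
  · exact ((hκ ⟨a, ha⟩).sub (hκ ⟨b, hb⟩)).trans ((h.le_iff _ _).trans (coded_le ⟨a, ha⟩ ⟨b, hb⟩))
  · exact congrArg Fin.val (h.inj (a₁ := (⟨a, ha⟩ : Fin n)) (a₂ := (⟨b, hb⟩ : Fin n))
      (le_antisymm (((hκ ⟨a, ha⟩).sub (hκ ⟨b, hb⟩)).1 g1) (((hκ ⟨b, hb⟩).sub (hκ ⟨a, ha⟩)).1 g2)))
  · obtain ⟨s, hc⟩ := hr.codes
    obtain ⟨a, ha⟩ := h.full s fun g g1 g2 => by
      obtain ⟨f, hf, rfl⟩ := exists_dF g
      exact (hc.keep f).1 (hk f hf (ok_iff.2 g1) ((hka f).2 g2))
    exact ⟨_, (show Fin n from a).2, (hc.sub (hκ a)).2 ha.ge, ((hκ a).sub hc).2 ha.le⟩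

theorem chk_iff (t n m N : ℕ) : Chk t n m N ↔ 0 < N ∧ ∃ κ : Coded n m → Setoid (Fin N),
    Rep (fun f => t = 0 ∨ Bijective f) κ ∧ (t = 0 ∨ Trans κ) := by
  refine and_congr_right fun _ => ⟨fun ⟨k, _, h⟩ => ?_, fun ⟨κ, h⟩ => ?_⟩
  · choose κ hκ using fun a : Fin n => (h.1.1 a a.2).codes
    exact ⟨κ, (chk_core hκ).1 h⟩
  · choose r hr hc using fun a : Fin n => exists_bit fun x y => κ a x y
    obtain ⟨k, h1, h2⟩ := exists_dg r hr
    exact ⟨k, h1, (chk_core fun a => by rw [h2]; exact hc a).2 h⟩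

theorem chk_zero (n m N : ℕ) : Chk 0 n m N ↔ RepOn (Coded n m) N := by
  simp [chk_iff, repOn_iff]

theorem chk_one (n m : ℕ) : (∃ N, Chk 1 n m N) ↔ GroupInterval (Coded n m) := by
  simp only [chk_iff, gi_iff, one_ne_zero, false_or]

theorem primrec_repOn : PrimrecPred fun z : (ℕ × ℕ) × ℕ => RepOn (Coded z.1.1 z.1.2) z.2 :=
  (p_chk 0).of_eq fun _ => chk_zero _ _ _

theorem re_representable : REPred fun p : ℕ × ℕ => Representable (Coded p.1 p.2) :=
  (re_ex (R := fun (p : ℕ × ℕ) N => RepOn (Coded p.1 p.2) N) primrec_repOn).of_eq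
    fun _ => representable_iff.symm

theorem re_gi : REPred fun p : ℕ × ℕ => GroupInterval (Coded p.1 p.2) :=
  (re_ex (R := fun (p : ℕ × ℕ) N => Chk 1 p.1 p.2 N) (p_chk 1)).of_eq fun _ => chk_one _ _

theorem computable_iff_bound :
    (ComputablePred fun p : ℕ × ℕ => Representable (Coded p.1 p.2)) ↔
      ∃ f : ℕ × ℕ → ℕ, Computable f ∧
        ∀ p : ℕ × ℕ, Representable (Coded p.1 p.2) → ∃ N ≤ f p, RepOn (Coded p.1 p.2) N := by
  classical
  constructor
  · intro h
    have hex : ∀ p : ℕ × ℕ, ∃ N, ¬ Representable (Coded p.1 p.2) ∨ RepOn (Coded p.1 p.2) N :=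
      fun p => by
        by_cases c : Representable (Coded p.1 p.2)
        · exact (representable_iff.1 c).imp fun _ => Or.inr
        · exact ⟨0, Or.inl c⟩
    refine ⟨_, Computable.find (P := fun (p : ℕ × ℕ) N =>
      ¬ Representable (Coded p.1 p.2) ∨ RepOn (Coded p.1 p.2) N) ?_ hex,
      fun p hp => ⟨_, le_rfl, (Nat.find_spec (hex p)).resolve_left (not_not.2 hp)⟩⟩
    have h1 := h.not.decide.comp (Computable.fst : Computable (Prod.fst : (ℕ × ℕ) × ℕ → ℕ × ℕ))
    have h2 := primrec_repOn.computablePred.decide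
    exact Computable.computablePred ((Primrec.or.to_comp.comp h1 h2).of_eq fun z => by simp)
  · rintro ⟨f, hf, h⟩
    have h1 : PrimrecPred fun z : (ℕ × ℕ) × ℕ => ∃ N < z.2 + 1, RepOn (Coded z.1.1 z.1.2) N :=
      p_ex (p_add (p_snd p_id) (.const _))
        (primrec_repOn.comp ((p_fst (p_fst p_id)).pair (p_snd p_id)))
    refine Computable.computablePred ((h1.computablePred.decide.comp
      (Computable.id.pair hf)).of_eq fun p => decide_eq_decide.2 ⟨?_, fun hp => ?_⟩)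
    · rintro ⟨N, -, hN⟩
      exact representable_iff.2 ⟨N, hN⟩
    · obtain ⟨N, h1, h2⟩ := h p hp
      exact ⟨N, Nat.lt_succ_of_le h1, h2⟩

theorem exists_coded (L : Type) [LE L] [Finite L] : ∃ n m, Nonempty (L ≃o Coded n m) := by
  classical
  obtain ⟨n, ⟨e⟩⟩ := Finite.exists_equiv_fin L
  obtain ⟨m, -, hm⟩ := exists_dg (b := 2) (n := n * n)
    (fun i => if e.symm (finProdFinEquiv.symm i).1 ≤ e.symm (finProdFinEquiv.symm i).2
      then 1 else 0) fun i => by split_ifs <;> simp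
  refine ⟨n, m, ⟨⟨e, fun {a b} => (coded_le (e a) (e b)).trans ?_⟩⟩⟩
  have := hm (finProdFinEquiv (e a, e b))
  rw [Equiv.symm_apply_apply] at this
  simp only [finProdFinEquiv_apply_val, Equiv.symm_apply_apply] at this
  rw [add_comm, this]
  split_ifs with h <;> simp [h]

end Vale.Agent.Q183G
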