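import Vale.Agent.P183.Defs
import Mathlib.Combinatorics.SimpleGraph.Connectivity.Finite
import Mathlib.Data.Fintype.Powerset
import Mathlib.Data.Fintype.Pi
import Mathlib.Algebra.Group.Subgroup.Lattice
import Mathlib.SetTheory.Cardinal.Finite

/-!
Coloured graphs that witness that a finite lattice is a congruence lattice.
-/

namespace Vale.Agent.Q183G

open Vale.Agent.P183

section

variable {L V : Type} [Lattice L] [OrderBot L]

/-- `c` colours the edges `x y` of the complete graph on `V` by elements of `L`: loops, and only
loops, have the least colour; `c` is symmetric; it satisfies the triangle inequality; and every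
`a` is the join of the colours below `a`. -/
def Colouring (c : V → V → L) : Prop :=
  (∀ x y, c x y = ⊥ ↔ x = y) ∧ (∀ x y, c x y = c y x) ∧ (∀ x y z, c x z ≤ c x y ⊔ c y z) ∧
    ∀ a b : L, (∀ x y, c x y ≤ a → c x y ≤ b) → a ≤ b

/-- The map `f` of the vertices does not increase colours. -/
def Nonexp (c : V → V → L) (f : V → V) : Prop := ∀ x y, c (f x) (f y) ≤ c x y

/-- The graph whose edges are the images of the pairs in `E` under the maps with property `P`
that do not increase colours. -/
def images (P : (V → V) → Prop) (c : V → V → L) (E : Finset (V × V)) : SimpleGraph V :=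
  SimpleGraph.fromRel fun x y => ∃ e ∈ E, ∃ f, P f ∧ Nonexp c f ∧ f e.1 = x ∧ f e.2 = y

/-- Connectivity: if the colour of `x y` is below the join of the colours of the pairs in `E`,
then a path of images of pairs in `E` joins `x` to `y`. -/
def Conn (P : (V → V) → Prop) (c : V → V → L) : Prop :=
  ∀ (E : Finset (V × V)) (x y : V), c x y ≤ E.sup (fun e => c e.1 e.2) →
    (images P c E).Reachable x y

/-- Connectivity in two parts: for joins of two colours, and for one pair. -/
def Split (P : (V → V) → Prop) (c : V → V → L) : Prop :=
  (∀ (a b : L) (x y : V), c x y ≤ a ⊔ b →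
    (SimpleGraph.fromRel fun u v => c u v ≤ a ∨ c u v ≤ b).Reachable x y) ∧
  ∀ u v x y : V, c x y ≤ c u v → (images P c {(u, v)}).Reachable x y

/-- A coloured graph witness for `L`. -/
def Witness (c : V → V → L) : Prop := Colouring c ∧ Conn (fun _ => True) c

/-- A coloured graph witness in which permutations suffice and act transitively. -/
def GroupWitness (c : V → V → L) : Prop :=
  Colouring c ∧ Conn Function.Bijective c ∧
    ∀ x y, ∃ f, Function.Bijective f ∧ Nonexp c f ∧ f x = y

/-- The algebra on `V` whose operations are the unary maps that do not increase colours. -/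
def alg [Finite V] [Nonempty V] (c : V → V → L) : FiniteAlgebra where
  carrier := V
  index := {f : V → V // Nonexp c f}
  arity _ := 1
  op f x := f.1 (x 0)
  finite_carrier := inferInstance
  nonempty_carrier := inferInstance
  finite_index := inferInstance

instance decAdj [Fintype V] [DecidableEq V] [DecidableLE L] (c : V → V → L)
    (E : Finset (V × V)) : DecidableRel (images (fun _ => True) c E).Adj := by
  unfold images Nonexp
  infer_instance

instance decWitness [Fintype V] [DecidableEq V] [Fintype L] [DecidableEq L] [DecidableLE L]
    (c : V → V → L) : Decidable (Witness c) := by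
  unfold Witness Colouring Conn
  infer_instance

end

/-- Exhaustive search for a witness on `n` vertices. -/
def search (L : Type) [Lattice L] [OrderBot L] [Fintype L] [DecidableEq L] [DecidableLE L]
    (n : ℕ) : Bool :=
  decide (0 < n ∧ ∃ c : Fin n → Fin n → L, Witness c)

/-- `L` is the congruence lattice of a finite algebra with `n` elements. -/
def RepOn (L : Type) [LE L] (n : ℕ) : Prop :=
  ∃ A : FiniteAlgebra, Nat.card A.carrier = n ∧ Nonempty (L ≃o A.Con)

/-- `L` is an interval `[H, G]` of subgroups of a finite group. -/
def GroupInterval (L : Type) [LE L] : Prop :=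
  ∃ (G : Type) (_ : Group G) (_ : Finite G) (H : Subgroup G),
    Nonempty (L ≃o {K : Subgroup G // H ≤ K})

/-- The set `{0, ..., n - 1}`, with the relation whose table is given by the bits of `m`. -/
def Coded (n _m : ℕ) : Type := Fin n

instance (n m : ℕ) : LE (Coded n m) :=
  ⟨fun (a b : Fin n) => m.testBit (n * a.1 + b.1) = true⟩

end Vale.Agent.Q183G
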