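import Vale.Agent.Q183G.Defs
import Mathlib.GroupTheory.OrderOfElement
import Mathlib.GroupTheory.Perm.Basic
import Mathlib.GroupTheory.GroupAction.Quotient

/-!
Representations by equivalence relations, and their relation to coloured graphs, finite algebras
and finite groups.
-/

namespace Vale.Agent.Q183G

open Vale.Agent.P183 Function

variable {L V W : Type}

/-- The map `f` keeps the equivalence `r`. -/
def Keeps (f : V → V) (r : Setoid V) : Prop := ∀ x y, r x y → r (f x) (f y)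

/-- `κ` is an isomorphism onto the equivalences kept by the maps with property `P` that keep all
`κ a`. -/
structure Rep [LE L] (P : (V → V) → Prop) (κ : L → Setoid V) : Prop where
  le_iff : ∀ a b, κ a ≤ κ b ↔ a ≤ b
  inj : Injective κ
  full : ∀ r : Setoid V, (∀ f, P f → (∀ a, Keeps f (κ a)) → Keeps f r) → ∃ a, κ a = r

/-- The maps with property `P` that keep all `κ a` act transitively. -/
def Trans (κ : L → Setoid V) : Prop := ∀ x y, ∃ f, Bijective f ∧ (∀ a, Keeps f (κ a)) ∧ f x = y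

theorem rep_of_iso [LE L] (A : FiniteAlgebra) (e : L ≃o A.Con) :
    Rep (fun _ => True) fun a => (e a).1 := by
  classical
  refine ⟨fun a b => e.le_iff_le, fun a b h => e.injective (Subtype.ext h), fun r hr => ?_⟩
  have hc : A.IsCongruence r := by
    intro i x y hxy
    have key : ∀ s : Finset (Fin (A.arity i)),
        r (A.op i x) (A.op i fun j => if j ∈ s then y j else x j) := by
      intro s
      induction s using Finset.induction_on with
      | empty => simp
      | insert k s hk ih =>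
        refine r.trans' ih ?_
        have hf : ∀ a, Keeps (fun t => A.op i
            (update (fun j => if j ∈ s then y j else x j) k t)) (e a).1 := by
          intro a t t' htt
          refine (e a).2 i _ _ fun j => ?_
          by_cases hj : j = k
          · subst hj
            simpa using htt
          · simp [update_of_ne hj]
        have h1 := hr _ trivial hf _ _ (hxy k)
        have e1 : update (fun j => if j ∈ s then y j else x j) k (x k) =
            fun j => if j ∈ s then y j else x j := by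
          funext j
          by_cases hj : j = k
          · subst hj
            simp [hk]
          · simp [update_of_ne hj]
        have e2 : update (fun j => if j ∈ s then y j else x j) k (y k) =
            fun j => if j ∈ insert k s then y j else x j := by
          funext j
          by_cases hj : j = k
          · subst hj
            simp
          · simp [hj]
        simpa only [e1, e2] using h1
    simpa using key Finset.univ
  exact ⟨e.symm ⟨r, hc⟩, by simp⟩

/-- The unary algebra given by a set of maps. -/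
def ualg [Finite V] [Nonempty V] (S : (V → V) → Prop) : FiniteAlgebra where
  carrier := V
  index := {f : V → V // S f}
  arity _ := 1
  op f x := f.1 (x 0)
  finite_carrier := inferInstance
  nonempty_carrier := inferInstance
  finite_index := inferInstance

theorem iso_ualg [LE L] [Finite V] [Nonempty V] {κ : L → Setoid V} (h : Rep (fun _ => True) κ)
    (S : (V → V) → Prop) (hS : ∀ f, S f ↔ ∀ a, Keeps f (κ a)) :
    ∃ e : L ≃o (ualg S).Con, ∀ a, (e a).1 = κ a := by
  let g : L → (ualg S).Con := fun a =>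
    ⟨κ a, fun f x y hxy => (hS f.1).1 f.2 a _ _ (hxy (0 : Fin 1))⟩
  have hb : Bijective g := ⟨fun a b hab => h.inj (congrArg Subtype.val hab), fun r => by
    obtain ⟨a, ha⟩ := h.full r.1 fun f _ hf x y hxy =>
      r.2 ⟨f, (hS f).2 hf⟩ (fun _ => x) (fun _ => y) fun _ => hxy
    exact ⟨a, Subtype.ext ha⟩⟩
  exact ⟨⟨Equiv.ofBijective g hb, fun {a b} => h.le_iff a b⟩, fun _ => rfl⟩

theorem Rep.transport [LE L] {P : (V → V) → Prop} {Q : (W → W) → Prop} {κ : L → Setoid V}
    (h : Rep P κ) (e : V ≃ W) (hP : ∀ f, P f → Q (e ∘ f ∘ e.symm)) :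
    Rep Q fun a => (κ a).comap e.symm := by
  have hle : ∀ r s : Setoid V, r.comap e.symm ≤ s.comap e.symm → r ≤ s := fun r s hrs x y hxy => by
    have := @hrs (e x) (e y) (by simpa [Setoid.comap_rel] using hxy)
    simpa [Setoid.comap_rel] using this
  refine ⟨fun a b => ⟨fun hab => (h.le_iff a b).1 (hle _ _ hab),
    fun hab x y hxy => (h.le_iff a b).2 hab hxy⟩,
    fun a b hab => h.inj (le_antisymm (hle _ _ hab.le) (hle _ _ hab.ge)), fun r hr => ?_⟩
  obtain ⟨a, ha⟩ := h.full (r.comap e) fun f hf hk x y hxy => by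
    have := hr _ (hP f hf) (fun a u v huv => by
      simpa [Setoid.comap_rel] using hk a _ _ huv) _ _ hxy
    simpa [Setoid.comap_rel] using this
  refine ⟨a, ?_⟩
  rw [ha]
  ext x y
  simp [Setoid.comap_rel]

theorem Trans.transport {κ : L → Setoid V} (h : Trans κ) (e : V ≃ W) :
    Trans fun a => (κ a).comap e.symm := fun x y => by
  obtain ⟨f, h1, h2, h3⟩ := h (e.symm x) (e.symm y)
  refine ⟨e ∘ f ∘ e.symm, e.bijective.comp (h1.comp e.symm.bijective), fun a u v huv => ?_, ?_⟩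
  · simpa [Setoid.comap_rel] using h2 a _ _ huv
  · simp [h3]

theorem repOn_iff [LE L] (n : ℕ) :
    RepOn L n ↔ 0 < n ∧ ∃ κ : L → Setoid (Fin n), Rep (fun _ => True) κ := by
  constructor
  · rintro ⟨A, rfl, ⟨e⟩⟩
    have := A.finite_carrier
    have := A.nonempty_carrier
    exact ⟨Nat.card_pos, _, (rep_of_iso A e).transport (Finite.equivFin _) fun _ _ => trivial⟩
  · rintro ⟨hn, κ, h⟩
    have : Nonempty (Fin n) := ⟨⟨0, hn⟩⟩
    obtain ⟨e, -⟩ := iso_ualg h _ fun _ => Iff.rfl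
    exact ⟨_, Nat.card_fin n, ⟨e⟩⟩

theorem representable_iff [LE L] : Representable L ↔ ∃ n, RepOn L n :=
  ⟨fun ⟨A, h⟩ => ⟨_, A, rfl, h⟩, fun ⟨_, A, _, h⟩ => ⟨A, h⟩⟩

/-! Groups. -/

theorem rep_of_gi [LE L] (h : GroupInterval L) :
    ∃ (V : Type) (_ : Finite V) (_ : Nonempty V) (κ : L → Setoid V),
      Rep Bijective κ ∧ Trans κ := by
  obtain ⟨G, _, _, H, ⟨e⟩⟩ := h
  let f : {K : Subgroup G // H ≤ K} → Setoid (G ⧸ H) := fun K =>
    Setoid.ker (Subgroup.quotientMapOfLE K.2)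
  have hf : ∀ (K : {K : Subgroup G // H ≤ K}) (a b : G),
      f K (a : G ⧸ H) (b : G ⧸ H) ↔ a⁻¹ * b ∈ K.1 := fun K a b => QuotientGroup.eq (s := K.1)
  have hk : ∀ (g : G) K, Keeps (fun x : G ⧸ H => g • x) (f K) := fun g K a b hab => by
    obtain ⟨a, rfl⟩ := QuotientGroup.mk_surjective (s := H) a
    obtain ⟨b, rfl⟩ := QuotientGroup.mk_surjective (s := H) b
    exact (hf K (g * a) (g * b)).2 (by simpa [mul_assoc] using (hf K a b).1 hab)
  have hle : ∀ K K', f K ≤ f K' ↔ K ≤ K' := fun K K' => ⟨fun h g hg => by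
    have := (hf K' 1 g).1 (h ((hf K 1 g).2 (by simpa using hg)))
    simpa using this, fun h a b hab => by
    obtain ⟨a, rfl⟩ := QuotientGroup.mk_surjective (s := H) a
    obtain ⟨b, rfl⟩ := QuotientGroup.mk_surjective (s := H) b
    exact (hf K' a b).2 (h ((hf K a b).1 hab))⟩
  refine ⟨G ⧸ H, Finite.of_surjective _ (QuotientGroup.mk_surjective (s := H)),
    ⟨((1 : G) : G ⧸ H)⟩, fun a => f (e a), ⟨fun a b => (hle _ _).trans e.le_iff_le,
      fun a b hab => e.injective (le_antisymm ((hle _ _).1 hab.le) ((hle _ _).1 hab.ge)),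
      fun r hr0 => ?_⟩, fun x y => ?_⟩
  · have hr : ∀ (g a b : G), r (a : G ⧸ H) (b : G ⧸ H) →
        r ((g * a : G) : G ⧸ H) ((g * b : G) : G ⧸ H) := fun g a b h =>
      hr0 _ (MulAction.bijective g) (fun a => hk g (e a)) _ _ h
    let K : Subgroup G :=
      { carrier := {g | r ((1 : G) : G ⧸ H) (g : G ⧸ H)}
        one_mem' := r.refl _
        mul_mem' := fun {a b} ha hb => r.trans ha (by simpa using hr a 1 b hb)
        inv_mem' := fun {a} ha => r.symm (by simpa using hr a⁻¹ 1 a ha) }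
    have hK : H ≤ K := fun g hg => by
      change r ((1 : G) : G ⧸ H) (g : G ⧸ H)
      rw [show ((1 : G) : G ⧸ H) = (g : G ⧸ H) from QuotientGroup.eq.2 (by simpa using hg)]
    refine ⟨e.symm ⟨K, hK⟩, Setoid.ext fun a b => ?_⟩
    obtain ⟨a, rfl⟩ := QuotientGroup.mk_surjective (s := H) a
    obtain ⟨b, rfl⟩ := QuotientGroup.mk_surjective (s := H) b
    rw [e.apply_symm_apply]
    refine (hf ⟨K, hK⟩ a b).trans ⟨fun h => ?_, fun h => ?_⟩
    · simpa using hr a 1 _ h
    · have := hr a⁻¹ a b h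
      rwa [inv_mul_cancel] at this
  · obtain ⟨a, rfl⟩ := QuotientGroup.mk_surjective (s := H) x
    obtain ⟨b, rfl⟩ := QuotientGroup.mk_surjective (s := H) y
    refine ⟨_, MulAction.bijective (b * a⁻¹), fun c => hk _ (e c), ?_⟩
    change (((b * a⁻¹) * a : G) : G ⧸ H) = b
    simp

/-- The permutations that keep all the equivalences. -/
def Grp [Finite V] (κ : L → Setoid V) : Subgroup (Equiv.Perm V) where
  carrier := {σ | ∀ a, Keeps σ (κ a)}
  mul_mem' := fun {a b} ha hb c x y h => ha c _ _ (hb c x y h)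
  one_mem' := fun _ _ _ h => h
  inv_mem' := by
    intro σ hσ
    have h1 : σ⁻¹ = σ ^ (orderOf σ - 1) := by
      have h2 : σ ^ (orderOf σ - 1) * σ = 1 := by
        rw [← pow_succ, Nat.sub_add_cancel (orderOf_pos σ), pow_orderOf_eq_one]
      exact (eq_inv_of_mul_eq_one_left h2).symm
    have h3 : ∀ n : ℕ, ∀ a, Keeps (σ ^ n : Equiv.Perm V) (κ a) := fun n => by
      induction n with
      | zero => exact fun _ _ _ h => h
      | succ n ih => rw [pow_succ]; exact fun c x y h => ih c _ _ (hσ c x y h)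
    rw [h1]
    exact h3 _

theorem gi_of_rep [LE L] [Finite V] [Nonempty V] {κ : L → Setoid V} (h : Rep Bijective κ)
    (ht : Trans κ) : GroupInterval L := by
  obtain ⟨x₀⟩ := ‹Nonempty V›
  have htr : ∀ x, ∃ σ ∈ Grp κ, σ x₀ = x := fun x =>
    let ⟨f, h1, h2, h3⟩ := ht x₀ x
    ⟨Equiv.ofBijective f h1, h2, h3⟩
  let S : L → Subgroup (Grp κ) := fun a =>
    { carrier := {g | κ a (g.1 x₀) x₀}
      mul_mem' := fun {g g'} hg hg' => (κ a).trans' (g.2 a _ _ hg') hg
      one_mem' := (κ a).refl' _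
      inv_mem' := fun {g} hg => by
        have := (g⁻¹).2 a _ _ hg
        refine (κ a).symm' ?_
        simpa using this }
  let H : Subgroup (Grp κ) :=
    { carrier := {g | g.1 x₀ = x₀}
      mul_mem' := fun {g g'} hg hg' => by
        change g.1 (g'.1 x₀) = x₀
        rw [hg', hg]
      one_mem' := rfl
      inv_mem' := fun {g} hg => by
        change g.1⁻¹ x₀ = x₀
        rw [Equiv.Perm.inv_eq_iff_eq]
        exact Eq.symm hg }
  have hHS : ∀ a, H ≤ S a := by
    intro a g hg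
    change κ a (g.1 x₀) x₀
    rw [show g.1 x₀ = x₀ from hg]
  have hle : ∀ a b, S a ≤ S b ↔ κ a ≤ κ b := by
    intro a b
    refine ⟨fun hab => ?_, fun hab g hg => hab hg⟩
    intro u v huv
    obtain ⟨σ, hσ, rfl⟩ := htr u
    obtain ⟨τ, hτ, rfl⟩ := htr v
    have h1 : (⟨τ⁻¹ * σ, mul_mem (inv_mem hτ) hσ⟩ : Grp κ) ∈ S a := by
      have := inv_mem hτ a _ _ huv
      change κ a ((τ⁻¹ * σ) x₀) x₀
      simpa using this
    have h2 : κ b ((τ⁻¹ * σ) x₀) x₀ := hab h1
    have := hτ b _ _ h2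
    simpa using this
  let F : L → {K : Subgroup (Grp κ) // H ≤ K} := fun a => ⟨S a, hHS a⟩
  refine ⟨Grp κ, inferInstance, inferInstance, H, ⟨⟨Equiv.ofBijective F ⟨fun a b hab => ?_, ?_⟩,
    fun {a b} => (hle a b).trans (h.le_iff a b)⟩⟩⟩
  · have h1 : S a = S b := congrArg Subtype.val hab
    exact h.inj (le_antisymm ((hle a b).1 h1.le) ((hle b a).1 h1.ge))
  rintro ⟨K, hK⟩
  have hwd : ∀ g g' : Grp κ, g.1 x₀ = g'.1 x₀ → g⁻¹ * g' ∈ K := by
    intro g g' hg
    refine hK ?_
    change g.1⁻¹ (g'.1 x₀) = x₀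
    rw [← hg]
    simp
  let r : Setoid V :=
    ⟨fun u v => ∃ g g' : Grp κ, g.1 x₀ = u ∧ g'.1 x₀ = v ∧ g⁻¹ * g' ∈ K,
      ⟨fun u => by
        obtain ⟨σ, hσ, hu⟩ := htr u
        exact ⟨⟨σ, hσ⟩, ⟨σ, hσ⟩, hu, hu, by simp⟩,
      fun ⟨g, g', h1, h2, h3⟩ => ⟨g', g, h2, h1, by simpa using inv_mem h3⟩,
      fun ⟨g, g', h1, h2, h3⟩ ⟨k, k', h4, h5, h6⟩ => ⟨g, k', h1, h5, by
        have := mul_mem (mul_mem h3 (hwd g' k (h2.trans h4.symm))) h6
        simpa [mul_assoc] using this⟩⟩⟩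
  obtain ⟨a, ha⟩ := h.full r fun f hf hσ u v ⟨g, g', h1, h2, h3⟩ =>
    ⟨⟨Equiv.ofBijective f hf, hσ⟩ * g, ⟨Equiv.ofBijective f hf, hσ⟩ * g', by simp [h1],
      by simp [h2], by simpa [mul_assoc] using h3⟩
  refine ⟨a, Subtype.ext ?_⟩
  ext g
  change κ a (g.1 x₀) x₀ ↔ g ∈ K
  rw [ha]
  constructor
  · rintro ⟨k, k', h1, h2, h3⟩
    have h4 := hwd k g h1
    have h5 : k' ∈ K := hK h2
    have := mul_mem (mul_mem h5 (inv_mem h3)) h4
    simpa [mul_assoc] using this
  · intro hg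
    exact ⟨g, 1, rfl, rfl, by simpa using hg⟩

theorem gi_iff [LE L] :
    GroupInterval L ↔ ∃ n, 0 < n ∧ ∃ κ : L → Setoid (Fin n), Rep Bijective κ ∧ Trans κ := by
  constructor
  · intro h
    obtain ⟨V, _, _, κ, h1, h2⟩ := rep_of_gi h
    exact ⟨_, Nat.card_pos, _, h1.transport (Finite.equivFin V) fun f hf =>
      (Equiv.bijective _).comp (hf.comp (Equiv.bijective _)), h2.transport _⟩
  · rintro ⟨n, hn, κ, h1, h2⟩
    have : Nonempty (Fin n) := ⟨⟨0, hn⟩⟩
    exact gi_of_rep h1 h2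

/-! Coloured graphs. -/

section

variable [Lattice L] [OrderBot L] {c : V → V → L} {P : (V → V) → Prop}

/-- The pairs with colour at most `a`. -/
def lev (h : Colouring c) (a : L) : Setoid V where
  r x y := c x y ≤ a
  iseqv := ⟨fun x => ((h.1 x x).2 rfl).le.trans bot_le, fun {x y} hxy => (h.2.1 y x).le.trans hxy,
    fun {x y z} h1 h2 => (h.2.2.1 x y z).trans (sup_le h1 h2)⟩

theorem nonexp_iff (h : Colouring c) (f : V → V) : Nonexp c f ↔ ∀ a, Keeps f (lev h a) :=
  ⟨fun hf _ x y hxy => (hf x y).trans hxy, fun hf x y => hf (c x y) x y le_rfl⟩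

theorem rel_of_reach {G : SimpleGraph V} {r : Setoid V} (h : ∀ x y, G.Adj x y → r x y) {x y : V}
    (hxy : G.Reachable x y) : r x y := by
  rw [SimpleGraph.reachable_iff_reflTransGen] at hxy
  induction hxy with
  | refl => exact r.refl' _
  | tail _ h2 ih => exact r.trans' ih (h _ _ h2)

theorem reach_of_rel {R : V → V → Prop} {x y : V} (h : R x y) :
    (SimpleGraph.fromRel R).Reachable x y := by
  by_cases e : x = y
  · rw [e]
  · exact SimpleGraph.Adj.reachable ((SimpleGraph.fromRel_adj _ _ _).2 ⟨e, Or.inl h⟩)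

theorem rel_of_fromRel {R : V → V → Prop} {r : Setoid V} (h : ∀ x y, R x y → r x y) {x y : V}
    (hxy : (SimpleGraph.fromRel R).Reachable x y) : r x y :=
  rel_of_reach (fun u v huv => by
    rcases ((SimpleGraph.fromRel_adj _ _ _).1 huv).2 with e | e
    · exact h _ _ e
    · exact r.symm' (h _ _ e)) hxy

theorem rep_of_conn [Finite V] (h : Colouring c) (hc : Conn P c) : Rep P (lev h) := by
  classical
  have := Fintype.ofFinite V
  have hle : ∀ a b, lev h a ≤ lev h b ↔ a ≤ b := fun a b =>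
    ⟨fun hab => h.2.2.2 a b fun x y hxy => hab hxy, fun hab x y hxy => le_trans hxy hab⟩
  refine ⟨hle, fun a b hab => le_antisymm ((hle a b).1 hab.le) ((hle b a).1 hab.ge), fun r hr => ?_⟩
  let E : Finset (V × V) := Finset.univ.filter fun e => r e.1 e.2
  refine ⟨E.sup fun e => c e.1 e.2, Setoid.ext fun x y => ⟨fun hxy => ?_, fun hxy => ?_⟩⟩
  · refine rel_of_fromRel ?_ (hc E x y hxy)
    rintro _ _ ⟨e, he, f, h1, h2, rfl, rfl⟩
    exact hr f h1 ((nonexp_iff h f).1 h2) _ _ (Finset.mem_filter.1 he).2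
  · exact Finset.le_sup (f := fun e : V × V => c e.1 e.2) (b := (x, y))
      (Finset.mem_filter.2 ⟨Finset.mem_univ _, hxy⟩)

theorem conn_of_rep {κ : L → Setoid V} (h : Rep P κ) (h1 : P id)
    (h2 : ∀ f g, P f → P g → P (f ∘ g)) :
    ∃ c : V → V → L, Colouring c ∧ Conn P c ∧ ∀ a x y, κ a x y ↔ c x y ≤ a := by
  have ex : ∀ x y, ∃ a, ∀ b, κ b x y ↔ a ≤ b := fun x y => by
    obtain ⟨a, ha⟩ := h.full (sInf {r | (∃ b, κ b = r) ∧ r x y}) fun f _ hf u v huv => by
      rw [Setoid.sInf_iff] at huv ⊢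
      rintro _ ⟨⟨b, rfl⟩, hb⟩
      exact hf b _ _ (huv _ ⟨⟨b, rfl⟩, hb⟩)
    refine ⟨a, fun b => ⟨fun hb => (h.le_iff a b).1 (ha.le.trans (sInf_le ⟨⟨b, rfl⟩, hb⟩)),
      fun hab => (h.le_iff a b).2 hab ?_⟩⟩
    rw [ha, Setoid.sInf_iff]
    exact fun r hr => hr.2
  choose c hc using ex
  have hb : ∀ x y, κ ⊥ x y → x = y := fun x y hxy => by
    obtain ⟨a, ha⟩ := h.full ⊥ fun f _ _ u v huv => by
      obtain rfl : u = v := huv
      exact (⊥ : Setoid V).refl' _
    have := (h.le_iff ⊥ a).2 bot_le hxy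
    rwa [ha] at this
  have hn : ∀ f, (∀ a, Keeps f (κ a)) ↔ Nonexp c f := fun f =>
    ⟨fun hf x y => (hc _ _ _).1 (hf _ x y ((hc _ _ _).2 le_rfl)),
      fun hf a x y hxy => (hc _ _ _).2 ((hf x y).trans ((hc _ _ _).1 hxy))⟩
  refine ⟨c, ⟨fun x y => ⟨fun e => hb x y ((hc _ _ _).2 e.le), ?_⟩, fun x y => ?_, fun x y z => ?_,
    fun a b hab => ?_⟩, fun E x y hxy => ?_, fun a x y => hc x y a⟩
  · rintro rfl
    exact le_bot_iff.1 ((hc _ _ _).1 ((κ ⊥).refl' x))
  · exact le_antisymm ((hc _ _ _).1 ((κ _).symm' ((hc _ _ _).2 le_rfl)))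
      ((hc _ _ _).1 ((κ _).symm' ((hc _ _ _).2 le_rfl)))
  · exact (hc _ _ _).1 ((κ _).trans' ((hc x y _).2 le_sup_left) ((hc y z _).2 le_sup_right))
  · exact (h.le_iff a b).1 fun x y hxy => (hc _ _ _).2 (hab x y ((hc _ _ _).1 hxy))
  · obtain ⟨b, hb⟩ := h.full (images P c E).reachableSetoid fun f hf hk u v huv =>
      rel_of_fromRel (r := (images P c E).reachableSetoid.comap f) (by
        rintro _ _ ⟨e, he, g, g1, g2, rfl, rfl⟩
        exact reach_of_rel ⟨e, he, f ∘ g, h2 f g hf g1,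
          fun s t => ((hn f).1 hk _ _).trans (g2 s t), rfl, rfl⟩) huv
    have : c x y ≤ b := hxy.trans (Finset.sup_le fun e he => (hc _ _ _).1 (by
      rw [hb]
      exact reach_of_rel ⟨e, he, id, h1, fun _ _ => le_rfl, rfl, rfl⟩))
    have h3 := (hc _ _ _).2 this
    rw [hb] at h3
    exact h3

theorem conn_iff_split [Finite V] (h : Colouring c) : Conn P c ↔ Split P c := by
  classical
  have := Fintype.ofFinite V
  constructor
  · intro hc
    refine ⟨fun a b x y hxy => ?_, fun u v x y hxy => hc {(u, v)} x y (by simpa using hxy)⟩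
    let E : Finset (V × V) := Finset.univ.filter fun e => c e.1 e.2 ≤ a ∨ c e.1 e.2 ≤ b
    have hE : ∀ u v, c u v ≤ a ∨ c u v ≤ b → c u v ≤ E.sup fun e => c e.1 e.2 := fun u v huv =>
      Finset.le_sup (f := fun e : V × V => c e.1 e.2) (b := (u, v))
        (Finset.mem_filter.2 ⟨Finset.mem_univ _, huv⟩)
    refine rel_of_fromRel (r := (SimpleGraph.fromRel
      fun u v => c u v ≤ a ∨ c u v ≤ b).reachableSetoid) ?_ (hc E x y (hxy.trans (sup_le
        (h.2.2.2 _ _ fun u v huv => hE u v (Or.inl huv))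
        (h.2.2.2 _ _ fun u v huv => hE u v (Or.inr huv)))))
    rintro _ _ ⟨e, he, f, -, h2, rfl, rfl⟩
    exact reach_of_rel ((Finset.mem_filter.1 he).2.imp (h2 _ _).trans (h2 _ _).trans)
  · rintro ⟨hj, hg⟩ E
    induction E using Finset.induction_on with
    | empty =>
      intro x y hxy
      rw [(h.1 x y).1 (le_bot_iff.1 hxy)]
    | insert e E _ ih =>
      intro x y hxy
      rw [Finset.sup_insert] at hxy
      refine rel_of_fromRel (r := (images P c (insert e E)).reachableSetoid) ?_ (hj _ _ x y hxy)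
      rintro u v (huv | huv)
      · refine rel_of_fromRel (r := (images P c (insert e E)).reachableSetoid) ?_
          (hg e.1 e.2 u v huv)
        rintro _ _ ⟨e', he', f, g1, g2, rfl, rfl⟩
        rw [Finset.mem_singleton.1 he']
        exact reach_of_rel ⟨e, Finset.mem_insert_self _ _, f, g1, g2, rfl, rfl⟩
      · refine rel_of_fromRel (r := (images P c (insert e E)).reachableSetoid) ?_ (ih u v huv)
        rintro _ _ ⟨e', he', f, g1, g2, rfl, rfl⟩
        exact reach_of_rel ⟨e', Finset.mem_insert_of_mem he', f, g1, g2, rfl, rfl⟩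

theorem alg_iso [Finite V] [Nonempty V] (h : Witness c) :
    ∃ e : L ≃o (alg c).Con, ∀ a x y, (e a).1 x y ↔ c x y ≤ a := by
  obtain ⟨e, he⟩ := iso_ualg (rep_of_conn h.1 h.2) (Nonexp c) (nonexp_iff h.1)
  exact ⟨e, fun a x y => by
    change (e a).1 x y ↔ _
    rw [he a]; rfl⟩

omit [OrderBot L] in
theorem card_index [Finite V] [Nonempty V] (c : V → V → L) :
    Nat.card (alg c).index ≤ Nat.card V ^ Nat.card V := by
  rw [← Nat.card_fun]
  exact Nat.card_le_card_of_injective (Subtype.val : {f : V → V // Nonexp c f} → V → V)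
    Subtype.val_injective

theorem witness_of_iso (A : FiniteAlgebra) (e : L ≃o A.Con) :
    ∃ c : A.carrier → A.carrier → L, Witness c ∧ ∀ a x y, (e a).1 x y ↔ c x y ≤ a :=
  let ⟨c, h1, h2, h3⟩ := conn_of_rep (rep_of_iso A e) trivial fun _ _ _ _ => trivial
  ⟨c, ⟨h1, h2⟩, h3⟩

theorem repOn_iff_witness (n : ℕ) :
    RepOn L n ↔ 0 < n ∧ ∃ c : Fin n → Fin n → L, Witness c := by
  rw [repOn_iff]
  refine and_congr_right fun _ => ⟨fun ⟨κ, h⟩ => ?_, fun ⟨c, h⟩ => ⟨_, rep_of_conn h.1 h.2⟩⟩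
  obtain ⟨c, h1, h2, -⟩ := conn_of_rep h trivial fun _ _ _ _ => trivial
  exact ⟨c, h1, h2⟩

theorem representable_iff_witness : Representable L ↔
    ∃ (V : Type) (_ : Finite V) (_ : Nonempty V) (c : V → V → L), Witness c :=
  ⟨fun ⟨A, ⟨e⟩⟩ =>
    let ⟨c, h, _⟩ := witness_of_iso A e
    ⟨_, A.finite_carrier, A.nonempty_carrier, c, h⟩,
  fun ⟨_, _, _, c, h⟩ =>
    let ⟨e, _⟩ := alg_iso h
    ⟨alg c, ⟨e⟩⟩⟩

theorem gi_iff_witness : GroupInterval L ↔
    ∃ (V : Type) (_ : Finite V) (_ : Nonempty V) (c : V → V → L), GroupWitness c := by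
  constructor
  · intro h
    obtain ⟨V, _, _, κ, h1, h2⟩ := rep_of_gi h
    obtain ⟨c, g1, g2, g3⟩ := conn_of_rep h1 bijective_id fun _ _ => Bijective.comp
    refine ⟨V, ‹_›, ‹_›, c, g1, g2, fun x y => ?_⟩
    obtain ⟨f, f1, f2, f3⟩ := h2 x y
    exact ⟨f, f1, fun u v => (g3 _ _ _).1 (f2 _ u v ((g3 _ _ _).2 le_rfl)), f3⟩
  · rintro ⟨V, _, _, c, g1, g2, g3⟩
    refine gi_of_rep (rep_of_conn g1 g2) fun x y => ?_
    obtain ⟨f, f1, f2, f3⟩ := g3 x y
    exact ⟨f, f1, (nonexp_iff g1 f).1 f2, f3⟩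

end

end Vale.Agent.Q183G
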